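import Vale.Agent.P058h12.WordLemma
import Vale.Agent.P058.Wrap

/-!
Every orbit of the symmetric group acting on coordinates is Ramsey, hence every finite transitive
set and every subtransitive set is Ramsey.
-/

open Filter
open scoped Classical

noncomputable section

namespace Vale.Agent.P058h12

open Vale.Agent.P058

/-- All rearrangements of the entries of `a`. -/
def orbit (k : ℕ) (a : Fin k → ℝ) : Set (EuclideanSpace ℝ (Fin k)) :=
  {x | ∃ σ : Equiv.Perm (Fin k), ∀ i, x i = a (σ i)}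

attribute [local instance] Ultrafilter.mul Ultrafilter.semigroup

/-- The main theorem on rearrangements. -/
theorem orbit_ramsey_succ (n : ℕ) (a : Fin (n + 1) → ℝ) : IsRamsey (orbit (n + 1) a) := by
  intro r hr
  obtain ⟨Γ, _, em, p, letter, -, hmul, hlet⟩ := exists_package
  obtain ⟨m, f0, y0, hm, hc0, hy0⟩ := exists_equal_counts (Γ := FreeGroup (Fin (n + 1)))
    (fun i => FreeGroup.of i)
  let s : ℝ := Real.sqrt m
  have hs : 0 < s := by positivity
  let φ : FreeGroup (Fin (n + 1)) →* Γ := FreeGroup.lift (fun t => letter (a t / s))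
  obtain ⟨f, hc, hf⟩ := Clo.map_hom φ hc0
  let St : Type := Equiv.Perm (Fin (n + 1))
  let val : St → Fin (n + 1) → ℝ := fun σ i => a (σ i) / s
  have hval : ∀ σ : St, f (fun i => letter (val σ i)) = φ y0 := by
    intro σ
    have e : (fun i => letter (val σ i)) = fun i => φ (FreeGroup.of (σ i)) := by
      funext i
      simp [φ, val]
    rw [e, hf, hy0 σ]
  by_contra hno
  have hno' : ∀ D : ℕ, ∃ c : EuclideanSpace ℝ (Fin (D + 1)) → Fin r,
      ∀ g : EuclideanSpace ℝ (Fin (n + 1)) → EuclideanSpace ℝ (Fin (D + 1)),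
        (∀ x ∈ orbit (n + 1) a, ∀ y ∈ orbit (n + 1) a, dist (g x) (g y) = dist x y) →
        ∀ col : Fin r, ∃ x ∈ orbit (n + 1) a, c (g x) ≠ col := by
    intro D
    by_contra h
    push Not at h
    exact hno ⟨D + 1, Nat.succ_pos _, h⟩
  choose c hc' using hno'
  have hlim : ∀ x : Sp, ∃ col : Fin r,
      ∀ᶠ D in (hyperfilter ℕ : Filter ℕ), c D (projD (D + 1) x) = col := by
    intro x
    obtain ⟨col, hcol⟩ :=
      (Ultrafilter.map (fun D => c D (projD (D + 1) x)) (hyperfilter ℕ)).eq_pure_of_finite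
    refine ⟨col, ?_⟩
    have h1 : ({col} : Set (Fin r)) ∈
        Ultrafilter.map (fun D => c D (projD (D + 1) x)) (hyperfilter ℕ) := by
      rw [hcol]
      simp
    exact h1
  choose lim hlim using hlim
  obtain ⟨col, hcol⟩ := (Ultrafilter.map lim (em (φ y0))).eq_pure_of_finite
  have hcolA : ∀ᶠ x in (em (φ y0) : Filter Sp), x ∈ {x | lim x = col} := by
    have h1 : ({col} : Set (Fin r)) ∈ Ultrafilter.map lim (em (φ y0)) := by
      rw [hcol]
      simp
    exact h1
  obtain ⟨R, N, hcard, hdis, -, hmem⟩ := extraction lett p em letter hmul hlet val hc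
    (fun _ => {x | lim x = col}) (fun σ => by rw [hval]; exact hcolA) 0
  have hall : ∀ᶠ D in (hyperfilter ℕ : Filter ℕ), ∀ σ : St,
      c D (projD (D + 1) (R * ∏ i, ∏ j ∈ N i, lett j (val σ i))) = col := by
    apply eventually_all.2
    intro σ
    have h1 := hlim (R * ∏ i, ∏ j ∈ N i, lett j (val σ i))
    have h2 : lim (R * ∏ i, ∏ j ∈ N i, lett j (val σ i)) = col := hmem σ
    rwa [h2] at h1
  have hbound : ∀ᶠ D in (hyperfilter ℕ : Filter ℕ), ∑ i, (N i).sup id ≤ D :=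
    Nat.hyperfilter_le_atTop (eventually_ge_atTop _)
  obtain ⟨D, hD1, hD2⟩ := (hall.and hbound).exists
  have hD3 : ∀ i, ∀ j ∈ N i, j < D + 1 := by
    intro i j hj
    have a1 : j ≤ (N i).sup id := Finset.le_sup (f := id) hj
    have a2 : (N i).sup id ≤ ∑ i, (N i).sup id :=
      Finset.single_le_sum (f := fun i => (N i).sup id) (fun _ _ => Nat.zero_le _)
        (Finset.mem_univ i)
    omega
  let emb : EuclideanSpace ℝ (Fin (n + 1)) → EuclideanSpace ℝ (Fin (D + 1)) := fun x =>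
    projD (D + 1) (R * ∏ i, ∏ j ∈ N i, lett j (x i / s))
  obtain ⟨x, hx, hne⟩ := hc' D emb
    (fun x _ y _ => emb_dist R N m hm hcard hdis (D + 1) hD3 x y) col
  obtain ⟨σ, hσ⟩ := hx
  apply hne
  have e : ∀ i, x i / s = val σ i := by
    intro i
    show x i / s = a (σ i) / s
    rw [hσ i]
  show c D (projD (D + 1) (R * ∏ i, ∏ j ∈ N i, lett j (x i / s))) = col
  simp only [e]
  exact hD1 σ

/-- Every set of rearrangements is Ramsey. -/
theorem orbit_ramsey (k : ℕ) (a : Fin k → ℝ) : IsRamsey (orbit k a) := by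
  cases k with
  | zero =>
      intro r hr
      refine ⟨1, le_rfl, fun c => ⟨fun _ => 0, ?_, c 0, fun _ _ => rfl⟩⟩
      intro x _ y _
      have : x = y := Subsingleton.elim x y
      rw [this]
      simp
  | succ n => exact orbit_ramsey_succ n a

/-- Distance-preserving transfer of the Ramsey property. -/
theorem IsRamsey.of_map {k l : ℕ} {A : Set (EuclideanSpace ℝ (Fin k))}
    {B : Set (EuclideanSpace ℝ (Fin l))} (hB : IsRamsey B)
    (φ : EuclideanSpace ℝ (Fin k) → EuclideanSpace ℝ (Fin l)) (hφ : ∀ x ∈ A, φ x ∈ B)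
    (hd : ∀ x ∈ A, ∀ y ∈ A, dist (φ x) (φ y) = dist x y) : IsRamsey A := by
  intro r hr
  obtain ⟨D, hD, h⟩ := hB r hr
  refine ⟨D, hD, fun c => ?_⟩
  obtain ⟨f, hf, col, hcol⟩ := h c
  refine ⟨fun x => f (φ x), fun x hx y hy => ?_, col, fun x hx => hcol _ (hφ x hx)⟩
  rw [hf _ (hφ x hx) _ (hφ y hy), hd x hx y hy]

/-- A finite set `X` is transitive if the isometries of the ambient space which map `X` onto
itself act transitively on `X`. -/
def IsTransitive {n : ℕ} (X : Set (EuclideanSpace ℝ (Fin n))) : Prop :=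
  X.Finite ∧ ∀ x ∈ X, ∀ y ∈ X, ∃ g : EuclideanSpace ℝ (Fin n) ≃ᵢ EuclideanSpace ℝ (Fin n),
    g '' X = X ∧ g x = y

/-- A set is subtransitive if it is congruent to a subset of a finite transitive set. -/
def IsSubtransitive {k : ℕ} (A : Set (EuclideanSpace ℝ (Fin k))) : Prop :=
  ∃ (n : ℕ) (X : Set (EuclideanSpace ℝ (Fin n))) (φ : EuclideanSpace ℝ (Fin k) → EuclideanSpace ℝ (Fin n)),
    IsTransitive X ∧ (∀ x ∈ A, φ x ∈ X) ∧ ∀ x ∈ A, ∀ y ∈ A, dist (φ x) (φ y) = dist x y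

section transitive

variable {n : ℕ} {X : Set (EuclideanSpace ℝ (Fin n))}

/-- The group of distance-preserving permutations of `X`. -/
def isoGroup (X : Set (EuclideanSpace ℝ (Fin n))) : Subgroup (Equiv.Perm X) where
  carrier := {π | ∀ u v : X, dist (π u : EuclideanSpace ℝ (Fin n)) (π v) = dist (u : EuclideanSpace ℝ (Fin n)) v}
  mul_mem' := by
    intro a b ha hb u v
    show dist ((a (b u) : X) : EuclideanSpace ℝ (Fin n)) (a (b v)) = _
    rw [ha, hb]
  one_mem' := fun _ _ => rfl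
  inv_mem' := by
    intro a ha u v
    have := ha (a⁻¹ u) (a⁻¹ v)
    simpa using this.symm

/-- Every transitive set is congruent to a subset of a set of rearrangements. -/
theorem transitive_ramsey (hX : IsTransitive X) : IsRamsey X := by
  obtain ⟨hfin, htrans⟩ := hX
  by_cases hne : X.Nonempty
  swap
  · intro r hr
    refine ⟨1, le_rfl, fun c => ⟨fun _ => 0, ?_, ⟨0, by omega⟩, ?_⟩⟩
    · intro x hx
      exact absurd ⟨x, hx⟩ hne
    · intro x hx
      exact absurd ⟨x, hx⟩ hne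
  obtain ⟨x₀, hx₀⟩ := hne
  have : Finite X := hfin
  have : Fintype X := Fintype.ofFinite X
  let G : Type := isoGroup X
  have : Fintype G := Fintype.ofFinite G
  let I : Type := G × Fin n
  let N : ℕ := Fintype.card I
  let e : I ≃ Fin N := Fintype.equivFin I
  have hGpos : 0 < Fintype.card G := Fintype.card_pos
  let s : ℝ := Real.sqrt (Fintype.card G)
  have hs : 0 < s := by positivity
  have hs2 : s ^ 2 = (Fintype.card G : ℝ) := Real.sq_sqrt (by positivity)
  -- the embedding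
  let Φ : X → EuclideanSpace ℝ (Fin N) := fun u =>
    WithLp.toLp 2 (fun i => (((e.symm i).1.1 u : X) : EuclideanSpace ℝ (Fin n)) (e.symm i).2 / s)
  have hΦ : ∀ (u : X) (π : G) (l : Fin n), Φ u (e (π, l)) = ((π.1 u : X) : EuclideanSpace ℝ (Fin n)) l / s := by
    intro u π l
    show (((e.symm (e (π, l))).1.1 u : X) : EuclideanSpace ℝ (Fin n)) (e.symm (e (π, l))).2 / s = _
    simp
  let a : Fin N → ℝ := fun i => Φ ⟨x₀, hx₀⟩ i
  let ψ : EuclideanSpace ℝ (Fin n) → EuclideanSpace ℝ (Fin N) := fun y =>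
    if h : y ∈ X then Φ ⟨y, h⟩ else 0
  have hψ : ∀ y (h : y ∈ X), ψ y = Φ ⟨y, h⟩ := fun y h => dif_pos h
  refine IsRamsey.of_map (orbit_ramsey N a) ψ ?_ ?_
  · -- the image lies in the orbit
    intro y hy
    obtain ⟨g, hg, hgy⟩ := htrans x₀ hx₀ y hy
    -- the permutation induced by `g`
    have hmaps : ∀ u : X, g u ∈ X := fun u => by
      have h1 : g u ∈ g '' X := ⟨u, u.2, rfl⟩
      rwa [hg] at h1
    have hsurj : ∀ u : X, ∃ v : X, g v = u := fun u => by
      have : (u : EuclideanSpace ℝ (Fin n)) ∈ g '' X := by rw [hg]; exact u.2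
      obtain ⟨v, hv, hvu⟩ := this
      exact ⟨⟨v, hv⟩, hvu⟩
    let πg : Equiv.Perm X := Equiv.ofBijective (fun u => ⟨g u, hmaps u⟩)
      ⟨fun u v h => Subtype.ext (g.injective (Subtype.ext_iff.1 h)),
        fun u => by
          obtain ⟨v, hv⟩ := hsurj u
          exact ⟨v, Subtype.ext hv⟩⟩
    have hπg : ∀ u : X, ((πg u : X) : EuclideanSpace ℝ (Fin n)) = g u := fun u => rfl
    have hπgG : πg ∈ isoGroup X := by
      intro u v
      rw [hπg, hπg]
      exact g.dist_eq _ _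
    let γ : G := ⟨πg, hπgG⟩
    let σ : Equiv.Perm (Fin N) :=
      e.symm.trans ((Equiv.prodCongr (Equiv.mulRight γ) (Equiv.refl (Fin n))).trans e)
    refine ⟨σ, fun i => ?_⟩
    rw [hψ y hy]
    obtain ⟨⟨π, l⟩, rfl⟩ := e.surjective i
    have hσ : σ (e (π, l)) = e (π * γ, l) := by
      have h1 : σ (e (π, l)) = e ((Equiv.prodCongr (Equiv.mulRight γ) (Equiv.refl (Fin n)))
          (e.symm (e (π, l)))) := rfl
      rw [h1, Equiv.symm_apply_apply]
      rfl
    show Φ ⟨y, hy⟩ (e (π, l)) = Φ ⟨x₀, hx₀⟩ (σ (e (π, l)))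
    rw [hσ, hΦ, hΦ]
    have key : ((π * γ).1 ⟨x₀, hx₀⟩ : X) = π.1 ⟨y, hy⟩ := by
      have h2 : πg ⟨x₀, hx₀⟩ = ⟨y, hy⟩ := Subtype.ext hgy
      show π.1 (πg ⟨x₀, hx₀⟩) = π.1 ⟨y, hy⟩
      rw [h2]
    rw [key]
  · -- distances
    intro u hu v hv
    rw [hψ u hu, hψ v hv]
    rw [EuclideanSpace.dist_eq, EuclideanSpace.dist_eq]
    congr 1
    have e1 : ∑ i : Fin N, dist (Φ ⟨u, hu⟩ i) (Φ ⟨v, hv⟩ i) ^ 2 =
        ∑ q : I, dist (Φ ⟨u, hu⟩ (e q)) (Φ ⟨v, hv⟩ (e q)) ^ 2 :=
      (Equiv.sum_comp e (fun i => dist (Φ ⟨u, hu⟩ i) (Φ ⟨v, hv⟩ i) ^ 2)).symm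
    rw [e1, Fintype.sum_prod_type]
    have e2 : ∀ π : G, ∑ l : Fin n, dist (Φ ⟨u, hu⟩ (e (π, l))) (Φ ⟨v, hv⟩ (e (π, l))) ^ 2 =
        (∑ l : Fin n, dist (u l) (v l) ^ 2) / s ^ 2 := by
      intro π
      have h1 : ∑ l : Fin n, dist (Φ ⟨u, hu⟩ (e (π, l))) (Φ ⟨v, hv⟩ (e (π, l))) ^ 2 =
          (∑ l : Fin n, dist (((π.1 ⟨u, hu⟩ : X) : EuclideanSpace ℝ (Fin n)) l)
            (((π.1 ⟨v, hv⟩ : X) : EuclideanSpace ℝ (Fin n)) l) ^ 2) / s ^ 2 := by
        rw [Finset.sum_div]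
        apply Finset.sum_congr rfl
        intro l _
        rw [hΦ, hΦ, Real.dist_eq, Real.dist_eq, sq_abs, sq_abs]
        field_simp
      have h2 := π.2 ⟨u, hu⟩ ⟨v, hv⟩
      rw [EuclideanSpace.dist_eq, EuclideanSpace.dist_eq] at h2
      have h3 := (Real.sqrt_inj (Finset.sum_nonneg (fun _ _ => by positivity))
        (Finset.sum_nonneg (fun _ _ => by positivity))).1 h2
      rw [h1, h3]
    simp only [e2]
    rw [Finset.sum_const, Finset.card_univ, nsmul_eq_mul, hs2]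
    field_simp

end transitive

/-- **Every subtransitive set is Ramsey.** -/
theorem subtransitive_ramsey {k : ℕ} {A : Set (EuclideanSpace ℝ (Fin k))} (h : IsSubtransitive A) :
    IsRamsey A := by
  obtain ⟨n, X, φ, hX, hφ, hd⟩ := h
  exact IsRamsey.of_map (transitive_ramsey hX) φ hφ hd

end Vale.Agent.P058h12
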