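import Vale.Agent.P058.Base

/-!
The word lemma: for every group, every `n` and every finite family of multisets of size `n`, some
formal product of constants and of the coordinates `v 0, ..., v (n-1)`, in which at least one
coordinate occurs, has a value on `x` which depends only on the multiset of the entries of `x`
(for `x` with multiset in the family).
-/

open scoped Classical

set_option linter.unusedSectionVars false

noncomputable section

namespace Vale.Agent.P058h12

open Vale.Agent.P058

variable {Γ : Type} [Group Γ]

/-- The multiset of the entries of a vector. -/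
def ms {n : ℕ} (x : Fin n → Γ) : Multiset Γ := (Finset.univ : Finset (Fin n)).val.map x

theorem ms_card {n : ℕ} (x : Fin n → Γ) : Multiset.card (ms x) = n := by
  simp [ms]

theorem ms_succ {n : ℕ} (x : Fin (n + 1) → Γ) : ms x = x 0 ::ₘ ms (fun i => x i.succ) := by
  simp only [ms, Fin.univ_val_map, List.ofFn_succ]
  rfl

theorem ms_cons {n : ℕ} (a : Γ) (r : Fin n → Γ) : ms (Fin.cons a r : Fin (n + 1) → Γ) = a ::ₘ ms r := by
  rw [ms_succ]
  simp

theorem ms_perm {n : ℕ} (x : Fin n → Γ) (σ : Equiv.Perm (Fin n)) :
    ms (fun i => x (σ i)) = ms x := by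
  unfold ms
  have h : (Finset.univ : Finset (Fin n)).val.map (fun i => x (σ i)) =
      ((Finset.univ : Finset (Fin n)).val.map σ).map x := by
    rw [Multiset.map_map]
    rfl
  rw [h, Multiset.map_univ_val_equiv]

theorem ms_map {n : ℕ} (x : Fin n → Γ) (Y : Γ → Γ) :
    ms (fun i => Y (x i)) = (ms x).map Y := by
  unfold ms
  rw [Multiset.map_map]
  rfl

theorem mem_ms {n : ℕ} (x : Fin n → Γ) (i : Fin n) : x i ∈ ms x := by
  unfold ms
  exact Multiset.mem_map.2 ⟨i, Finset.mem_univ i, rfl⟩

theorem exists_of_card {n : ℕ} (μ : Multiset Γ) (h : Multiset.card μ = n) :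
    ∃ r : Fin n → Γ, ms r = μ := by
  induction n generalizing μ with
  | zero =>
      refine ⟨Fin.elim0, ?_⟩
      have h0 : μ = 0 := Multiset.card_eq_zero.1 h
      rw [h0]
      simp [ms]
  | succ n ih =>
      obtain ⟨a, ha⟩ := Multiset.card_pos_iff_exists_mem.1 (by omega : 0 < Multiset.card μ)
      obtain ⟨ν, rfl⟩ := Multiset.exists_cons_of_mem ha
      have hν : Multiset.card ν = n := by
        simpa using h
      obtain ⟨r, hr⟩ := ih ν hν
      exact ⟨Fin.cons a r, by rw [ms_cons, hr]⟩

/-- The splitting lemma. -/
theorem split {ι ι' : Type} [DecidableEq ι] (i₀ : ι') (A B : Γ) (v : ι → Γ) (p : ι) {n : ι → ℕ}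
    {g : (ι → Γ) → Γ} (h : Clo n g) :
    ∃ (n' : ι' → ℕ) (T : Γ → Γ), Clo n' (fun w : ι' → Γ => T (w i₀)) ∧
      g (Function.update v p A) * T B = g (Function.update v p B) * T A := by
  induction h with
  | const c =>
      exact ⟨_, fun _ => 1, Clo.const (1 : Γ), rfl⟩
  | proj i =>
      by_cases hi : i = p
      · subst hi
        refine ⟨_, fun x => B⁻¹ * x, Clo.mul (Clo.const B⁻¹) (Clo.proj i₀), ?_⟩
        simp
      · refine ⟨_, fun _ => 1, Clo.const (1 : Γ), ?_⟩
        simp [Function.update_of_ne hi]
  | @mul n₁ n₂ g₁ g₂ _ _ ih₁ ih₂ =>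
      obtain ⟨n₁', T₁, hc₁, he₁⟩ := ih₁
      obtain ⟨n₂', T₂, hc₂, he₂⟩ := ih₂
      let c : Γ := (g₂ (Function.update v p B) * T₂ A)⁻¹
      refine ⟨_, fun x => T₂ x * c * T₁ x, Clo.mul (Clo.mul hc₂ (Clo.const c)) hc₁, ?_⟩
      have hk : g₂ (Function.update v p B) * T₂ A * c = 1 := by
        show g₂ (Function.update v p B) * T₂ A * (g₂ (Function.update v p B) * T₂ A)⁻¹ = 1
        group
      calc g₁ (Function.update v p A) * g₂ (Function.update v p A) * (T₂ B * c * T₁ B)
          = g₁ (Function.update v p A) * (g₂ (Function.update v p A) * T₂ B) * c * T₁ B := by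
            group
        _ = g₁ (Function.update v p A) * (g₂ (Function.update v p B) * T₂ A * c) * T₁ B := by
            rw [he₂]; group
        _ = g₁ (Function.update v p A) * T₁ B := by rw [hk]; group
        _ = g₁ (Function.update v p B) * T₁ A := he₁
        _ = g₁ (Function.update v p B) * (g₂ (Function.update v p B) * T₂ A * c) * T₁ A := by
            rw [hk]; group
        _ = g₁ (Function.update v p B) * g₂ (Function.update v p B) * (T₂ A * c * T₁ A) := by
            group

/-- The word lemma. -/
theorem word_lemma (n : ℕ) : ∀ (J : Type) [Fintype J] (t : J → Multiset Γ),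
    (∀ j, Multiset.card (t j) = n + 1) →
    ∃ f : (Fin (n + 1) → Γ) → Γ, Wp f ∧
      ∀ j x y, ms x = t j → ms y = t j → f x = f y := by
  induction n with
  | zero =>
      intro J _ t _
      refine ⟨fun v => v 0, Wp.of_proj 0, ?_⟩
      intro j x y hx hy
      have h : ms x = ms y := hx.trans hy.symm
      rw [ms_succ x, ms_succ y] at h
      have h0 : ∀ z : Fin 1 → Γ, ms (fun i : Fin 0 => z i.succ) = 0 := by
        intro z; simp [ms]
      rw [h0, h0] at h
      simpa using h
  | succ n ih =>
      intro J _ t ht
      -- induction on the total number of distinct values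
      induction' hd : (∑ j, (t j).toFinset.card) using Nat.strong_induction_on with d IH
        generalizing t
      by_cases hcase : ∀ j, (t j).toFinset.card ≤ 1
      · refine ⟨fun v => v 0, Wp.of_proj 0, ?_⟩
        intro j x y hx hy
        have h1 : x 0 ∈ (t j).toFinset := by
          rw [Multiset.mem_toFinset, ← hx]; exact mem_ms x 0
        have h2 : y 0 ∈ (t j).toFinset := by
          rw [Multiset.mem_toFinset, ← hy]; exact mem_ms y 0
        exact Finset.card_le_one.1 (hcase j) _ h1 _ h2
      · push Not at hcase
        obtain ⟨j₀, hj₀⟩ := hcase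
        obtain ⟨A, hA, B, hB, hAB⟩ := Finset.one_lt_card.1 hj₀
        have hA' : A ∈ t j₀ := Multiset.mem_toFinset.1 hA
        have hB' : B ∈ t j₀ := Multiset.mem_toFinset.1 hB
        -- the word on one coordinate less
        let J' : Type := Σ j : J, {b // b ∈ (t j).toFinset}
        let t' : J' → Multiset Γ := fun q => (t q.1).erase q.2.1
        have ht' : ∀ q, Multiset.card (t' q) = n + 1 := by
          intro q
          have hm : q.2.1 ∈ t q.1 := Multiset.mem_toFinset.1 q.2.2
          show Multiset.card ((t q.1).erase q.2.1) = n + 1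
          rw [Multiset.card_erase_of_mem hm, ht q.1]
          rfl
        obtain ⟨g, hgw, hginv⟩ := ih J' t' ht'
        -- tails
        have htail : ∀ (j : J) (x : Fin (n + 2) → Γ), ms x = t j →
            ms (fun i : Fin (n + 1) => x i.succ) = (t j).erase (x 0) := by
          intro j x hx
          rw [← hx, ms_succ x]
          simp
        have hmem0 : ∀ (j : J) (x : Fin (n + 2) → Γ), ms x = t j → x 0 ∈ (t j).toFinset := by
          intro j x hx
          rw [Multiset.mem_toFinset, ← hx]
          exact mem_ms x 0
        have hgtail : ∀ (j : J) (x y : Fin (n + 2) → Γ), ms x = t j → ms y = t j → x 0 = y 0 →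
            g (fun i => x i.succ) = g (fun i => y i.succ) := by
          intro j x y hx hy hxy
          apply hginv ⟨j, ⟨x 0, hmem0 j x hx⟩⟩
          · exact htail j x hx
          · show ms (fun i : Fin (n + 1) => y i.succ) = (t j).erase (x 0)
            rw [hxy]
            exact htail j y hy
        -- the reference vector
        have hρ : Multiset.card (((t j₀).erase A).erase B) = n := by
          have h1 : B ∈ (t j₀).erase A := (Multiset.mem_erase_of_ne (Ne.symm hAB)).2 hB'
          rw [Multiset.card_erase_of_mem h1, Multiset.card_erase_of_mem hA', ht j₀]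
          rfl
        obtain ⟨r, hr⟩ := exists_of_card _ hρ
        let z : Fin (n + 1) → Γ := Fin.cons A r
        have hzA : Function.update z 0 A = z := by
          funext i
          refine Fin.cases ?_ (fun i => ?_) i
          · simp [z]
          · simp [z, Function.update_of_ne (Fin.succ_ne_zero i)]
        have hzB : Function.update z 0 B = Fin.cons B r := by
          funext i
          refine Fin.cases ?_ (fun i => ?_) i
          · simp
          · simp [z, Function.update_of_ne (Fin.succ_ne_zero i)]
        have hmsA : ms (Function.update z 0 A) = (t j₀).erase B := by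
          rw [hzA, ms_cons, hr, Multiset.erase_comm]
          exact Multiset.cons_erase ((Multiset.mem_erase_of_ne hAB).2 hA')
        have hmsB : ms (Function.update z 0 B) = (t j₀).erase A := by
          rw [hzB, ms_cons, hr]
          exact Multiset.cons_erase ((Multiset.mem_erase_of_ne (Ne.symm hAB)).2 hB')
        obtain ⟨cnt, i, hi, hgc⟩ := hgw
        obtain ⟨n', T, hT, hTe⟩ := split (0 : Fin (n + 2)) A B z 0 hgc
        -- the new word
        let f : (Fin (n + 2) → Γ) → Γ := fun x => g (fun i => x i.succ) * T (x 0)
        have hfw : Wp f := by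
          have h1 : Wp (fun x : Fin (n + 2) → Γ => g (fun i => x i.succ)) :=
            Wp.subst (fun j : Fin (n + 1) => Wp.of_proj j.succ) ⟨cnt, i, hi, hgc⟩
          obtain ⟨c1, i1, hi1, hc1⟩ := h1
          exact ⟨_, i1, lt_of_lt_of_le hi1 (Nat.le_add_right _ _), Clo.mul hc1 hT⟩
        have hfdep : ∀ (j : J) (x y : Fin (n + 2) → Γ), ms x = t j → ms y = t j → x 0 = y 0 →
            f x = f y := by
          intro j x y hx hy hxy
          show g (fun i => x i.succ) * T (x 0) = g (fun i => y i.succ) * T (y 0)
          rw [hgtail j x y hx hy hxy, hxy]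
        have hfmerge : ∀ (x y : Fin (n + 2) → Γ), ms x = t j₀ → ms y = t j₀ → x 0 = B → y 0 = A →
            f x = f y := by
          intro x y hx hy hxB hyA
          have e1 : g (fun i => x i.succ) = g (Function.update z 0 A) := by
            apply hginv ⟨j₀, ⟨B, hB⟩⟩
            · have := htail j₀ x hx
              rw [hxB] at this
              exact this
            · exact hmsA
          have e2 : g (fun i => y i.succ) = g (Function.update z 0 B) := by
            apply hginv ⟨j₀, ⟨A, hA⟩⟩
            · have := htail j₀ y hy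
              rw [hyA] at this
              exact this
            · exact hmsB
          show g (fun i => x i.succ) * T (x 0) = g (fun i => y i.succ) * T (y 0)
          rw [e1, e2, hxB, hyA, hTe]
        -- the values
        let Y : J → Γ → Γ := fun j b =>
          if h : ∃ x : Fin (n + 2) → Γ, ms x = t j ∧ x 0 = b then f h.choose else 1
        have hY : ∀ (j : J) (x : Fin (n + 2) → Γ), ms x = t j → f x = Y j (x 0) := by
          intro j x hx
          have h : ∃ x' : Fin (n + 2) → Γ, ms x' = t j ∧ x' 0 = x 0 := ⟨x, hx, rfl⟩
          show f x = if h : ∃ x' : Fin (n + 2) → Γ, ms x' = t j ∧ x' 0 = x 0 then f h.choose else 1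
          rw [dif_pos h]
          exact hfdep j x _ hx h.choose_spec.1 h.choose_spec.2.symm
        have hexists : ∀ b ∈ t j₀, ∃ x : Fin (n + 2) → Γ, ms x = t j₀ ∧ x 0 = b := by
          intro b hb
          have hc : Multiset.card ((t j₀).erase b) = n + 1 := by
            rw [Multiset.card_erase_of_mem hb, ht j₀]
            rfl
          obtain ⟨r', hr'⟩ := exists_of_card _ hc
          refine ⟨Fin.cons b r', ?_, by simp⟩
          rw [ms_cons, hr']
          exact Multiset.cons_erase hb
        have hYAB : Y j₀ A = Y j₀ B := by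
          obtain ⟨xA, hxA, hxA0⟩ := hexists A hA'
          obtain ⟨xB, hxB, hxB0⟩ := hexists B hB'
          have e1 := hY j₀ xA hxA
          have e2 := hY j₀ xB hxB
          rw [hxA0] at e1
          rw [hxB0] at e2
          rw [← e1, ← e2]
          exact (hfmerge xB xA hxB hxA hxB0 hxA0).symm
        -- the new family
        let t2 : J → Multiset Γ := fun j => (t j).map (Y j)
        have ht2 : ∀ j, Multiset.card (t2 j) = n + 1 + 1 := by
          intro j
          simp [t2, ht j]
        have hle : ∀ j, (t2 j).toFinset.card ≤ (t j).toFinset.card := by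
          intro j
          simp only [t2, Multiset.toFinset_map]
          exact Finset.card_image_le
        have hlt : (t2 j₀).toFinset.card < (t j₀).toFinset.card := by
          simp only [t2, Multiset.toFinset_map]
          apply lt_of_le_of_ne Finset.card_image_le
          intro hcard
          exact hAB ((Finset.card_image_iff.1 hcard) hA hB hYAB)
        have hsum : (∑ j, (t2 j).toFinset.card) < d := by
          rw [← hd]
          exact Finset.sum_lt_sum (fun j _ => hle j) ⟨j₀, Finset.mem_univ _, hlt⟩
        obtain ⟨W, hWw, hWinv⟩ := IH _ hsum t2 ht2 rfl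
        -- the composite
        let F : Fin (n + 2) → (Fin (n + 2) → Γ) → Γ := fun i x =>
          f (fun k => x (Equiv.swap 0 i k))
        have hFw : ∀ i, Wp (F i) := fun i => Wp.perm (Equiv.swap 0 i) hfw
        have hF : ∀ (j : J) (x : Fin (n + 2) → Γ), ms x = t j → ∀ i, F i x = Y j (x i) := by
          intro j x hx i
          have h1 : ms (fun k => x (Equiv.swap 0 i k)) = t j := by
            rw [ms_perm, hx]
          have h2 := hY j _ h1
          simpa [F] using h2
        have hFms : ∀ (j : J) (x : Fin (n + 2) → Γ), ms x = t j →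
            ms (fun i => F i x) = t2 j := by
          intro j x hx
          have e : (fun i => F i x) = fun i => Y j (x i) := funext (hF j x hx)
          rw [e, ms_map, hx]
        refine ⟨fun x => W (fun i => F i x), Wp.subst hFw hWw, ?_⟩
        intro j x y hx hy
        exact hWinv j _ _ (hFms j x hx) (hFms j y hy)

/-- Invariance of a formal product under all permutations of the coordinates of a vector. -/
theorem exists_invariant {n : ℕ} (a : Fin (n + 1) → Γ) :
    ∃ f : (Fin (n + 1) → Γ) → Γ, Wp f ∧ ∀ σ : Equiv.Perm (Fin (n + 1)),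
      f (fun i => a (σ i)) = f a := by
  obtain ⟨f, hf, hinv⟩ := word_lemma n Unit (fun _ => ms a) (fun _ => ms_card a)
  exact ⟨f, hf, fun σ => hinv () _ _ (ms_perm a σ) rfl⟩

/-- Equal numbers of occurrences. -/
theorem exists_equal_counts {n : ℕ} (a : Fin (n + 1) → Γ) :
    ∃ (m : ℕ) (f : (Fin (n + 1) → Γ) → Γ) (y : Γ), 0 < m ∧ Clo (fun _ => m) f ∧
      ∀ σ : Equiv.Perm (Fin (n + 1)), f (fun i => a (σ i)) = y := by
  obtain ⟨T, ⟨cnt, i0, hi0, hc⟩, hT⟩ := exists_invariant a
  let K := Fin (n + 1)
  let L : List (Equiv.Perm K) := (Finset.univ : Finset (Equiv.Perm K)).toList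
  have hL : L.Nodup := Finset.nodup_toList _
  have hL' : ∀ g, g ∈ L := fun g => Finset.mem_toList.2 (Finset.mem_univ g)
  have hdeg : ∀ i i', (L.map (fun g : Equiv.Perm K => cnt (g.symm i))).sum =
      (L.map (fun g : Equiv.Perm K => cnt (g.symm i'))).sum := by
    intro i i'
    have := list_map_perm_sum L hL hL' (Equiv.mulLeft (Equiv.swap i i'))
      (fun g : Equiv.Perm K => cnt (g.symm i))
    rw [← this]
    congr 1
    apply List.map_congr_left
    intro g _
    show cnt ((Equiv.swap i i' * g).symm i) = cnt (g.symm i')
    congr 1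
    show g.symm ((Equiv.swap i i').symm i) = _
    simp
  have hpos : 0 < (L.map (fun g : Equiv.Perm K => cnt (g.symm i0))).sum := by
    have hmem : cnt ((Equiv.refl K : Equiv.Perm K).symm i0) ∈
        L.map (fun g : Equiv.Perm K => cnt (g.symm i0)) :=
      List.mem_map.2 ⟨_, hL' _, rfl⟩
    exact lt_of_lt_of_le hi0 (List.single_le_sum (by simp) _ hmem)
  refine ⟨_, permProd T 1 L, permProd T 1 L a, hpos,
    (permProd_clo hc 1 L).congr (fun i => hdeg i i0) (fun _ => rfl), ?_⟩
  intro σ
  show (L.map (fun g => T (fun k => a (σ (g k))) * 1)).prod =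
    (L.map (fun g => T (fun k => a (g k)) * 1)).prod
  congr 1
  apply List.map_congr_left
  intro g _
  have h1 : T (fun k => a (σ (g k))) = T a := hT (σ * g)
  have h2 : T (fun k => a (g k)) = T a := hT g
  rw [h1, h2]

end Vale.Agent.P058h12
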